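import Vale.Agent.P172M11.Defs
import Vale.Agent.P172M11.CatDefs

/-! Word-hyperbolic groups and CAT groups. -/

namespace Vale.Agent.N172

open Vale.Agent.P172 Vale.Agent.P172M11

universe u

/-- The Cayley graph of `G` with respect to `S` is a geodesic space in which each side of every
geodesic triangle lies in the `δ`-neighbourhood of the other two sides, for some `δ ≥ 0`. -/
def HypGraph {G : Type} [Group G] (S : Finset G) : Prop :=
  ∃ (X : Type) (_ : MetricSpace X) (v : G → X) (e : G × S → unitInterval → X),
    IsCayley S X v e ∧ (∀ x y : X, ∃ γ, IsGeodesic γ x y) ∧ ∃ δ : ℝ, 0 ≤ δ ∧ SlimTriangles X δ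

/-- Word-hyperbolic: the Cayley graph for some finite generating set is hyperbolic. -/
def WordHyperbolic (G : Type) [Group G] : Prop :=
  ∃ S : Finset G, Subgroup.closure (S : Set G) = ⊤ ∧ HypGraph S

/-- `G` has a geometric action by isometries on a nonempty proper space that is CAT with respect
to the model plane `M`. -/
def CATGroup (M : Type) [MetricSpace M] (G : Type) [Group G] : Prop :=
  ∃ (X : Type u) (_ : MetricSpace X) (_ : MulAction G X), Nonempty X ∧ ProperSpace X ∧
    IsCAT M X ∧ IsIsometricSMul G X ∧ Geometric G X

end Vale.Agent.N172
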