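import Vale.Agent.N172.Ultra
import Vale.Agent.P172M11.Final

/-! The group with a fixed point on every complete CAT(0) space. -/

set_option linter.all false

namespace Vale.Agent.N172

open Finset Vale.Agent.P172 Vale.Agent.P172V Vale.Agent.P172M11 Vale.Agent.P198.H

universe u

theorem noAct : ∃ (k : ℕ) (ε : ℝ), 0 < ε ∧ ∀ (S Q Z : Type) [Fintype S] [Nonempty S] [Fintype Q]
    [Fintype Z] (D : Data S Q Z) (G : Type) [Group G] (ι : S → G), D.Unif k ε → D.Realized ι →
    ∀ (X : Type u) [PseudoMetricSpace X] [MulAction G X] [IsIsometricSMul G X]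
      (x0 x1 : X) (pt : X → X → ℝ → X), ¬ Act ι x0 x1 pt := by
  classical
  obtain ⟨k, ε, hε, hε1, H⟩ := vineq_unif.{u} 1e-12 (by norm_num) (by norm_num)
  refine ⟨k, ε, hε, ?_⟩
  rintro S Q Z _ _ _ _ D G _ ι ⟨U, hU, hD⟩ hR X _ _ _ x0 x1 pt
  have hg : ∀ z, ∃ g : Vx → G, D.vb z →
      g .v = 1 ∧ ∀ φ, IsEdge φ → g (od φ) = g (ev φ) * ι (D.bl z φ) := by
    intro z
    by_cases hz : D.vb z
    · obtain ⟨g, hg⟩ := hR z hz
      exact ⟨g, fun _ => hg⟩
    · exact ⟨1, fun h => absurd h hz⟩
  choose g hg using hg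
  have hM : ∀ φ, MCount 1e-12 U D.blocks fun z => D.bl z φ := fun φ =>
    MCount.mono (ε := ε) (fun s => by
      have := hD.1 φ s
      rw [Data.cnt] at this
      convert this) hU.le hε1
  have hV := H S Q Z D U hU hD
  have hE : ∀ φ, IsEdge φ →
      Edge ι D.blocks (fun z => g z (ev φ)) (fun z => g z (od φ)) fun z => D.bl z φ :=
    fun φ hφ z hz => (hg z ((mem_blocks D).1 hz)).2 φ hφ
  have hE1 : ∀ φ, IsEdge φ → ev φ = .v →
      Edge ι D.blocks 1 (fun z => g z (od φ)) fun z => D.bl z φ := by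
    intro φ hφ hv z hz
    have := hE φ hφ z hz
    simp only [hv, (hg z ((mem_blocks D).1 hz)).1] at this
    exact this
  exact c45.{u} hU D.blocks D.labs
    ⟨hM .vu, hM .va, hM .vb, hM .t1u, hM .t1a, hM .t2u, hM .t2b,
      hM .wa, hM .wb, hM .vc, hM .vc', hM .s3c, hM .s3c', hM .r3c,
      hM .r3c', hM .vd, hM .vd', hM .s4d, hM .s4d', hM .r4d, hM .r4d',
      hM .w'c', hM .w'd', hM .t1e, hM .t1e', hM .s3e, hM .s3e', hM .s4e,
      hM .s4e', hM .t2f, hM .t2f', hM .r3f, hM .r3f', hM .r4f, hM .r4f'⟩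
    ⟨hV .q2 .va (by decide) .vu (by decide) .vb (by decide),
      hV .q2 .t1u (by decide) .vu (by decide) .vb (by decide),
      hV .q1 .vb (by decide) .vu (by decide) .va (by decide),
      hV .q1 .t2u (by decide) .vu (by decide) .va (by decide),
      hV .q1 .wa (by decide) .vu (by decide) .va (by decide),
      hV .q3 .w'c' (by decide) .vc' (by decide) .vc (by decide),
      hV .q3 .vd' (by decide) .vc' (by decide) .vc (by decide),
      hV .q3 .vu (by decide) .vc' (by decide) .vc (by decide),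
      hV .cc' .vc (by decide) .vc' (by decide) .vd' (by decide),
      hV .cc' .vd (by decide) .vc' (by decide) .vd' (by decide),
      hV .cc' .s3c' (by decide) .vc' (by decide) .vd' (by decide),
      hV .cc' .r3c' (by decide) .vc' (by decide) .vd' (by decide),
      hV .cc' .s4d' (by decide) .vc' (by decide) .vd' (by decide),
      hV .cc' .r4d' (by decide) .vc' (by decide) .vd' (by decide),
      hV .q4 .vc' (by decide) .vd' (by decide) .vd (by decide),
      hV .d5 .t1e' (by decide) .t1e (by decide) .z5 (by decide),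
      hV .d6 .t2f' (by decide) .t2f (by decide) .z6 (by decide)⟩
    ι ⟨(g · .t1), (g · .t2), (g · .w), (g · .s3), (g · .r3), (g · .s4), (g · .r4),
      (g · .w'), (g · .u), (g · .a), (g · .b), (g · .c), (g · .c'), (g · .d),
      (g · .d'), (g · .e), (g · .e'), (g · .f), (g · .f')⟩
    ⟨hE1 .vu (by decide) rfl, hE1 .va (by decide) rfl, hE1 .vb (by decide) rfl,
      hE .t1u (by decide), hE .t1a (by decide), hE .t2u (by decide),
      hE .t2b (by decide), hE .wa (by decide), hE .wb (by decide),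
      hE1 .vc (by decide) rfl, hE1 .vc' (by decide) rfl, hE .s3c (by decide),
      hE .s3c' (by decide), hE .r3c (by decide), hE .r3c' (by decide),
      hE1 .vd (by decide) rfl, hE1 .vd' (by decide) rfl, hE .s4d (by decide),
      hE .s4d' (by decide), hE .r4d (by decide), hE .r4d' (by decide),
      hE .w'c' (by decide), hE .w'd' (by decide), hE .t1e (by decide),
      hE .t1e' (by decide), hE .s3e (by decide), hE .s3e' (by decide),
      hE .s4e (by decide), hE .s4e' (by decide), hE .t2f (by decide),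
      hE .t2f' (by decide), hE .r3f (by decide), hE .r3f' (by decide),
      hE .r4f (by decide), hE .r4f' (by decide)⟩
    x0 x1 pt

/-- The odd vertices of the block. -/
def odd : Vx → Bool
  | .u | .a | .b | .c | .c' | .d | .d' | .e | .e' | .f | .f' => true
  | _ => false

theorem odd_pos : ∀ k : Option Ro, ∀ p ∈ pos k, odd (od p) = true ∧ odd (ev p) = false := by
  decide

theorem shift {S Q Z : Type} (D : Data S Q Z) (h : D.Grp) :
    ∃ r : D.Grp →* D.Grp, ∀ s, r (PresentedGroup.of s) = PresentedGroup.of s * h := by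
  let e : Vx → D.Grp := fun x => if odd x then h else 1
  have key : ∀ (o : D.gs.O) (l : List (D.gs.P × Bool)) (x y : D.gs.Vx), (∀ d ∈ l, D.gs.ok o d.1) →
      D.gs.IsWk x l y → e x * FreeGroup.lift (fun s => (PresentedGroup.of s : D.Grp) * h)
        (FreeGroup.mk (D.gs.word o l)) =
      PresentedGroup.mk D.gs.rels (FreeGroup.mk (D.gs.word o l)) * e y := by
    intro o l
    induction l with
    | nil =>
      rintro x y - (rfl : x = y)
      show e x * FreeGroup.lift _ 1 = PresentedGroup.mk _ 1 * e x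
      rw [map_one, map_one, one_mul, mul_one]
    | cons d l ih =>
      rintro x y hl ⟨rfl, h2⟩
      have h3 := ih _ y (fun d hd => hl d (List.mem_cons_of_mem _ hd)) h2
      obtain ⟨h4, h5⟩ := odd_pos _ d.1 (hl d List.mem_cons_self)
      have h6 : FreeGroup.mk (D.gs.word o (d :: l)) =
          FreeGroup.mk [(D.gs.lab o d.1, d.2)] * FreeGroup.mk (D.gs.word o l) := rfl
      rw [h6, map_mul, map_mul, mul_assoc, ← h3, ← mul_assoc, ← mul_assoc]
      congr 1
      obtain ⟨p, _ | _⟩ := d
      · show e (od p) * FreeGroup.lift _ (FreeGroup.of (D.gs.lab o p))⁻¹ =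
          PresentedGroup.mk _ (FreeGroup.of (D.gs.lab o p))⁻¹ * e (ev p)
        rw [map_inv, map_inv, FreeGroup.lift_apply_of]
        simp only [e, h4, h5, if_true, Bool.false_eq_true, if_false, mul_inv_rev,
          mul_inv_cancel_left, mul_one]
        rfl
      · show e (ev p) * FreeGroup.lift _ (FreeGroup.of (D.gs.lab o p)) =
          PresentedGroup.mk _ (FreeGroup.of (D.gs.lab o p)) * e (od p)
        rw [FreeGroup.lift_apply_of]
        simp only [e, h4, h5, if_true, Bool.false_eq_true, if_false, one_mul]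
        rfl
  refine ⟨PresentedGroup.toGroup (f := fun s => PresentedGroup.of s * h) ?_,
    fun s => PresentedGroup.toGroup.of _⟩
  rintro _ ⟨o, l, ⟨h1, x, h2⟩, rfl⟩
  have h3 := key o l x x h1 h2
  rwa [VK.GS.cw_one ⟨h1, x, h2⟩, one_mul, mul_eq_left] at h3

theorem wdist_map {G H : Type} [Group G] [Group H] {S : Finset G} {T : Finset H}
    (hS : Subgroup.closure (S : Set G) = ⊤) (f : G →* H) (hf : ∀ s ∈ S, f s ∈ T) (x y : G) :
    wdist T (f x) (f y) ≤ wdist S x y := by
  obtain ⟨l, h1, h2, h3⟩ := exists_word hS (x⁻¹ * y)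
  have := wlen_le (S := T) (l := l.map f) fun z hz => by
    obtain ⟨s, hs, rfl⟩ := List.mem_map.1 hz
    exact (h2 s hs).imp (hf s) fun h => map_inv f s ▸ hf _ h
  rwa [← map_list_prod, h3, List.length_map, h1, map_mul, map_inv] at this

theorem hyp_retract {G H : Type} [Group G] [Group H] {S : Finset G}
    (hS : Subgroup.closure (S : Set G) = ⊤) (h : HypCayley S) (i : H →* G) (r : G →* H)
    (hr : ∀ x, r (i x) = x) {T : Finset H} (hT : Subgroup.closure (T : Set H) = ⊤) :
    HypCayley T := by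
  classical
  have h0 : Subgroup.closure ((S.image r : Finset H) : Set H) = ⊤ := by
    rw [coe_image, ← MonoidHom.map_closure, hS, ← MonoidHom.range_eq_map,
      MonoidHom.range_eq_top.2 fun x => ⟨i x, hr x⟩]
  have h1 : Subgroup.closure ((S ∪ (S.image r).image i : Finset G) : Set G) = ⊤ :=
    top_le_iff.1 (hS ▸ Subgroup.closure_mono (coe_subset.2 subset_union_left))
  have h2 : ∀ x y, wdist (S.image r) x y = wdist (S ∪ (S.image r).image i) (i x) (i y) :=
    fun x y => le_antisymm (by
      have := wdist_map (T := S.image r) h1 r (fun s hs => by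
        rcases mem_union.1 hs with hs | hs
        · exact mem_image_of_mem r hs
        · obtain ⟨t, ht, rfl⟩ := mem_image.1 hs
          rwa [hr]) (i x) (i y)
      rwa [hr, hr] at this)
      (wdist_map h0 i (fun s hs => mem_union_right _ (mem_image_of_mem i hs)) x y)
  obtain ⟨δ, h⟩ := thin_of_hyp h1 (every hS h1 h)
  have := stokes_of (P186.Hyp.conn H _ h0) (K := 6 * δ + 2) fun p a b x e => by
    have h4 := four_of_thin' h1 h (i p) (i a) (i x) (i b)
    simp only [P198.H372.dist_eq h0] at e ⊢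
    simp only [← h2] at h4
    rw [wdist_comm a p] at e ⊢
    rw [wdist_comm x p, wdist_comm x a]
    omega
  obtain ⟨d, hd⟩ := P186W94.thin_all h0 this hT
  exact hyp_of_thin hT (thin_of_walks hT hd)

/-- Every isometric action on a complete space with the inequality (CN) has a fixed point. -/
def Fix (G : Type) [Group G] : Prop :=
  ∀ (X : Type u) [MetricSpace X] [CompleteSpace X] [Nonempty X] [MulAction G X]
    [IsIsometricSMul G X] (pt : X → X → ℝ → X), IsCNt pt → ∃ x : X, ∀ g : G, g • x = x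

theorem exists_fix : ∃ (G : Type) (_ : Group G), Infinite G ∧ Group.FG G ∧
    (∀ T : Finset G, Subgroup.closure (T : Set G) = ⊤ → HypCayley T) ∧ Fix.{u} G := by
  classical
  obtain ⟨k, ε, hε, hC⟩ := noAct.{u}
  obtain ⟨n, hn, hA⟩ := stmtA k ε hε
  obtain ⟨K, hB⟩ := stmtB_of (stmtB13_of stmtB4) stmtB2 n hn
  obtain ⟨N, D, s0, s1, hs, hS, hU⟩ := hA K
  obtain ⟨⟨S, hS, δ, hδ⟩, h2⟩ := hB _ _ _ D s0 s1 hs hS
  obtain ⟨r, hr⟩ := shift D (PresentedGroup.of s1)⁻¹
  have hrr : r.comp r = r := PresentedGroup.ext fun s => by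
    simp only [MonoidHom.comp_apply, hr, map_mul, map_inv, mul_inv_cancel, inv_one, mul_one]
  let a : Fin N → r.range := fun s => r.rangeRestrict (PresentedGroup.of s)
  have hgen : Subgroup.closure (Set.range a) = ⊤ := by
    rw [show Set.range a = r.rangeRestrict '' Set.range PresentedGroup.of from Set.range_comp _ _,
      ← MonoidHom.map_closure, PresentedGroup.closure_range_of, ← MonoidHom.range_eq_map,
      MonoidHom.range_eq_top.2 r.rangeRestrict_surjective]
  have : Nonempty (Fin N) := ⟨s0⟩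
  refine ⟨r.range, inferInstance, ?_, Group.fg_iff.2 ⟨_, hgen, Set.finite_range _⟩,
    fun T hT => hyp_retract hS (hyp_of_thin hS (thin_of_walks hS hδ)) r.range.subtype
      r.rangeRestrict ?_ hT, fun X _ _ _ _ _ pt hpt => fix_of_noAct a s1
      (Subtype.ext ((hr s1).trans (mul_inv_cancel _)))
      hgen (hC _ _ _ D _ a hU fun z hz => ?_) X hpt⟩
  · refine not_finite_iff_infinite.1 fun hf => h2 ?_
    rw [← hr]
    exact r.range.subtype.isOfFinOrder (isOfFinOrder_of_finite (a s0))
  · rintro ⟨_, x, rfl⟩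
    exact Subtype.ext (DFunLike.congr_fun hrr x)
  · obtain ⟨g, h1, h3⟩ := stmtB0 _ _ _ D z hz
    exact ⟨fun x => r.rangeRestrict (g x), by simp only [h1, map_one],
      fun φ hφ => by simp only [h3 φ hφ, map_mul, a]⟩

theorem l2_sq {ι X : Type*} [Fintype ι] [MetricSpace X] (x y : PiLp 2 fun _ : ι => X) :
    dist x y ^ 2 = ∑ i, dist (x i) (y i) ^ 2 := by
  rw [PiLp.dist_eq_sum (by norm_num)]
  simp only [ENNReal.toReal_ofNat, Real.rpow_ofNat]
  rw [← Real.sqrt_eq_rpow, Real.sq_sqrt (sum_nonneg fun _ _ => sq_nonneg _)]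

theorem Fix.sub {G : Type} [Group G] (h : Fix.{u} G) (K : Subgroup G) [K.FiniteIndex] :
    Fix.{u} K := by
  intro X _ _ _ _ _ pt hpt
  have := Fintype.ofFinite (G ⧸ K)
  let κ : G → G ⧸ K → K := fun g q => ⟨q.out⁻¹ * (g * (g⁻¹ • q).out), QuotientGroup.eq.1 (by
    rw [QuotientGroup.out_eq', ← smul_eq_mul, ← MulAction.Quotient.smul_mk,
      QuotientGroup.out_eq', smul_inv_smul])⟩
  letI : MulAction G (PiLp 2 fun _ : G ⧸ K => X) :=
    { smul := fun g F => WithLp.toLp 2 fun q => κ g q • F (g⁻¹ • q)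
      one_smul := fun F => PiLp.ext fun q => by
        show κ 1 q • F ((1 : G)⁻¹ • q) = F q
        rw [show κ 1 q = 1 from Subtype.ext (by simp [κ]), inv_one, one_smul, one_smul]
      mul_smul := fun g g' F => PiLp.ext fun q => by
        show κ (g * g') q • F ((g * g')⁻¹ • q) = κ g q • κ g' (g⁻¹ • q) • F (g'⁻¹ • g⁻¹ • q)
        rw [smul_smul, mul_inv_rev, mul_smul, show κ g q * κ g' (g⁻¹ • q) = κ (g * g') q from
          Subtype.ext (by simp [κ, mul_assoc, mul_smul])] }
  haveI : IsIsometricSMul G (PiLp 2 fun _ : G ⧸ K => X) := ⟨fun g => Isometry.of_dist_eq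
    fun F F' => (sq_eq_sq₀ dist_nonneg dist_nonneg).1 (by
      rw [l2_sq, l2_sq]
      exact Fintype.sum_equiv (MulAction.toPerm g⁻¹) _ _ fun q => congrArg (· ^ 2) (dist_smul _ _ _))⟩
  have : Nonempty (PiLp 2 fun _ : G ⧸ K => X) := ⟨WithLp.toLp 2 fun _ => Classical.arbitrary X⟩
  obtain ⟨F, hF⟩ := h (PiLp 2 fun _ : G ⧸ K => X)
    (fun F F' t => WithLp.toLp 2 fun q => pt (F q) (F' q) t) fun F F' z t h0 h1 => by
      simp only [l2_sq, mul_sum, ← sum_add_distrib, ← sum_sub_distrib]
      exact sum_le_sum fun q _ => hpt _ _ _ t h0 h1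
  let q : G ⧸ K := (1 : G)
  have hq : q.out ∈ K := by simpa using QuotientGroup.eq.1 (QuotientGroup.out_eq' q).symm
  refine ⟨F q, fun k => ?_⟩
  have h1 : (q.out * k * q.out⁻¹)⁻¹ • q = q := QuotientGroup.eq.2 (by
    simpa using K.mul_mem (K.mul_mem hq k.2) (K.inv_mem hq))
  have h2 : κ (q.out * k * q.out⁻¹) q • F ((q.out * k * q.out⁻¹)⁻¹ • q) = F q :=
    congrArg (fun F : PiLp 2 fun _ : G ⧸ K => X => F q) (hF _)
  rwa [show κ (q.out * k * q.out⁻¹) q = k from Subtype.ext (by
    show q.out⁻¹ * (_ * (_ • q).out) = _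
    rw [h1]
    group), h1] at h2

end Vale.Agent.N172
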