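import Vale.Agent.N172.Defs
import Vale.Agent.N172.Fix

/-! Assembly. -/

set_option linter.all false

namespace Vale.Agent.N172

open Vale.Agent.P172 Vale.Agent.P172V Vale.Agent.P172M11

universe u

theorem HypGraph.of {G : Type} [Group G] {S : Finset G} (h : HypCayley S) : HypGraph S :=
  let ⟨X, i, v, e, h1, h2, δ, h3, h4, _⟩ := h
  ⟨X, i, v, e, h1, h2, δ, h3, h4⟩

theorem Fix.cat {G : Type} [Group G] (h : Fix.{u} G) (X : Type u) [MetricSpace X]
    [MulAction G X] [Nonempty X] [CompleteSpace X] [IsIsometricSMul G X]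
    (hX : IsCAT (EuclideanSpace ℝ (Fin 2)) X ∨ IsCAT UpperHalfPlane X) :
    ∃ x : X, ∀ g : G, g • x = x :=
  let ⟨pt, hpt⟩ := exists_cnt (cat0_of hX)
  h X pt hpt

theorem Fix.finite {G : Type} [Group G] (h : Fix.{u} G) {Γ : Type} [Group Γ] (φ : G →* Γ)
    (X : Type u) [MetricSpace X] [MulAction Γ X] [Nonempty X] [CompleteSpace X]
    [IsIsometricSMul Γ X] (hX : IsCAT (EuclideanSpace ℝ (Fin 2)) X ∨ IsCAT UpperHalfPlane X)
    (hs : ∀ x : X, Finite (MulAction.stabilizer Γ x)) : Finite φ.range := by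
  letI : MulAction G X := MulAction.compHom X φ
  haveI : IsIsometricSMul G X := ⟨fun g => isometry_smul X (φ g)⟩
  obtain ⟨x, hx⟩ := h.cat X hX
  have := hs x
  exact Finite.of_injective (Subgroup.inclusion (show φ.range ≤ MulAction.stabilizer Γ x by
    rintro _ ⟨g, rfl⟩
    exact hx g)) (Subgroup.inclusion_injective _)

theorem Geometric.stab {G X : Type*} [Group G] [MetricSpace X] [MulAction G X]
    (h : Geometric G X) (x : X) : Finite (MulAction.stabilizer G x) :=
  let ⟨_, hU, h1⟩ := h.1 x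
  (h1.subset fun g hg => ⟨x, ⟨x, mem_of_mem_nhds hU, hg⟩, mem_of_mem_nhds hU⟩ :
    (MulAction.stabilizer G x : Set G).Finite)

theorem main :
    ((¬ ∀ (G : Type) [Group G], WordHyperbolic G → CATGroup.{u} (EuclideanSpace ℝ (Fin 2)) G) ∧
      ¬ ∀ (G : Type) [Group G], WordHyperbolic G → CATGroup.{u} UpperHalfPlane G) ∧
    ∃ (G : Type) (_ : Group G), Infinite G ∧ Group.FG G ∧
      (∀ S : Finset G, Subgroup.closure (S : Set G) = ⊤ → HypGraph S) ∧
      ∀ K : Subgroup G, K.FiniteIndex →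
        (∀ (X : Type u) [MetricSpace X] [MulAction K X], Nonempty X → CompleteSpace X →
          IsCAT (EuclideanSpace ℝ (Fin 2)) X → IsIsometricSMul K X →
          ∃ x : X, ∀ g : K, g • x = x) ∧
        ∀ (Γ : Type) [Group Γ] (φ : K →* Γ),
          (∀ (X : Type u) [MetricSpace X] [MulAction Γ X], Nonempty X → CompleteSpace X →
            IsCAT (EuclideanSpace ℝ (Fin 2)) X → IsIsometricSMul Γ X →
            (∀ x : X, Finite (MulAction.stabilizer Γ x)) → Finite φ.range) ∧
          (Function.Injective φ →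
            ¬ CATGroup.{u} (EuclideanSpace ℝ (Fin 2)) Γ ∧ ¬ CATGroup.{u} UpperHalfPlane Γ) := by
  obtain ⟨G, _, h1, h2, h3, h4⟩ := exists_fix.{u}
  have key : ∀ (K : Type) [Group K] [Infinite K], Fix.{u} K → ∀ (Γ : Type) [Group Γ] (φ : K →* Γ),
      Function.Injective φ →
        ¬ CATGroup.{u} (EuclideanSpace ℝ (Fin 2)) Γ ∧ ¬ CATGroup.{u} UpperHalfPlane Γ := by
    intro K _ _ hK Γ _ φ hφ
    have := Infinite.of_injective _ (MonoidHom.ofInjective hφ).injective
    constructor <;> rintro ⟨X, _, _, _, _, hX, _, hG⟩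
    · exact (hK.finite φ X (.inl hX) (Geometric.stab hG)).not_infinite this
    · exact (hK.finite φ X (.inr hX) (Geometric.stab hG)).not_infinite this
  have h5 : WordHyperbolic G := let ⟨S, hS⟩ := h2.out; ⟨S, hS, .of (h3 S hS)⟩
  have h6 := key G h4 G (MonoidHom.id G) Function.injective_id
  refine ⟨⟨fun h => h6.1 (h G h5), fun h => h6.2 (h G h5)⟩, G, _, h1, h2,
    fun S hS => .of (h3 S hS), fun K _ => ⟨fun X _ _ _ _ hX _ => (h4.sub K).cat X (.inl hX),
      fun Γ _ φ => ⟨fun X _ _ _ _ hX _ hs => (h4.sub K).finite φ X (.inl hX) hs, ?_⟩⟩⟩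
  have : Infinite K := not_finite_iff_infinite.1 fun hK =>
    (Subgroup.finite_iff_finite_and_finiteIndex (H := K)).2 ⟨hK, inferInstance⟩ |>.not_infinite h1
  exact key K (h4.sub K) Γ φ

end Vale.Agent.N172
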