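import Vale.Agent.P172V.C4
import Vale.Agent.P172V.Min

/-! Rescaled ultralimits: an action without fixed point has a limit with a harmonic pair. -/

set_option linter.all false

namespace Vale.Agent.N172

open Filter Topology Finset Vale.Agent.P172V

universe u

theorem almost_min {X : Type*} [PseudoMetricSpace X] [CompleteSpace X] [Nonempty X] (f : X → ℝ)
    (hc : Continuous f) (h0 : ∀ x, 0 < f x) (R r : ℝ) (hR : 0 ≤ R) (hr0 : 0 ≤ r) (hr : r < 1) :
    ∃ p, ∀ q, dist p q ≤ R * f p → r * f p ≤ f q := by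
  by_contra h
  push Not at h
  choose F h1 h2 using h
  obtain ⟨p⟩ := ‹Nonempty X›
  have h3 : ∀ k, f (F^[k] p) ≤ f p * r ^ k := fun k => by
    induction k with
    | zero => simp
    | succ k ih =>
      rw [Function.iterate_succ_apply', pow_succ, ← mul_assoc, mul_comm]
      exact (h2 _).le.trans (mul_le_mul_of_nonneg_left ih hr0)
  obtain ⟨a, ha⟩ := cauchySeq_tendsto_of_complete (cauchySeq_of_le_geometric r (R * f p) hr
    (f := fun k => F^[k] p) fun k => by
      rw [Function.iterate_succ_apply', mul_assoc]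
      exact (h1 _).trans (mul_le_mul_of_nonneg_left (h3 k) hR))
  have h4 := le_of_tendsto_of_tendsto' ((hc.tendsto a).comp ha)
    ((tendsto_pow_atTop_nhds_zero_of_lt_one hr0 hr).const_mul (f p)) h3
  rw [mul_zero] at h4
  exact (h0 a).not_ge h4

variable {X : Type u} [PseudoMetricSpace X]

/-- Sequences at bounded rescaled distance from the base sequence. -/
@[ext] structure UL (b : ℕ → X) (w : ℕ → NNReal) : Type u where
  y : ℕ → X
  bd : ∃ C : ℝ, ∀ n, w n * dist (y n) (b n) ≤ C

variable {b : ℕ → X} {w : ℕ → NNReal}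

theorem UL.ex (p q : UL b w) : ∃ L, Tendsto (fun n => w n * dist (p.y n) (q.y n))
    (hyperfilter ℕ) (𝓝 L) := by
  obtain ⟨C, hC⟩ := p.bd
  obtain ⟨D, hD⟩ := q.bd
  obtain ⟨L, -, h⟩ := (isCompact_Icc (a := (0 : ℝ)) (b := C + D)).ultrafilter_le_nhds
    ((hyperfilter ℕ).map fun n => w n * dist (p.y n) (q.y n)) (le_principal_iff.2
      (mem_map.2 (univ_mem' fun n => ⟨by positivity, by
        have := mul_le_mul_of_nonneg_left (dist_triangle_right (p.y n) (q.y n) (b n)) (w n).2
        have h1 := hC n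
        have h2 := hD n
        simp only [NNReal.val_eq_coe] at this
        linarith⟩)))
  exact ⟨L, h⟩

noncomputable instance : Dist (UL b w) :=
  ⟨fun p q => limUnder (hyperfilter ℕ) fun n => w n * dist (p.y n) (q.y n)⟩

theorem UL.tend (p q : UL b w) : Tendsto (fun n => w n * dist (p.y n) (q.y n))
    (hyperfilter ℕ) (𝓝 (dist p q)) := tendsto_nhds_limUnder (p.ex q)

noncomputable instance : PseudoMetricSpace (UL b w) where
  dist_self p := tendsto_nhds_unique (p.tend p) (by simp)
  dist_comm p q := tendsto_nhds_unique (p.tend q) (by simpa only [dist_comm] using q.tend p)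
  dist_triangle p q r := le_of_tendsto_of_tendsto' (p.tend r) ((p.tend q).add (q.tend r))
    fun n => by
      rw [← mul_add]
      exact mul_le_mul_of_nonneg_left (dist_triangle _ _ _) (w n).2

theorem UL.cnt {pt : X → X → ℝ → X} (h : IsCNt pt) :
    ∃ pt' : UL b w → UL b w → ℝ → UL b w, IsCNt pt' := by
  have h1 : ∀ (p q : UL b w) (t : ℝ), ∃ m : UL b w, 0 ≤ t → t ≤ 1 →
      ∀ n, m.y n = pt (p.y n) (q.y n) t := fun p q t => by
    by_cases ht : 0 ≤ t ∧ t ≤ 1
    · obtain ⟨C, hC⟩ := p.bd
      obtain ⟨D, hD⟩ := q.bd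
      refine ⟨⟨fun n => pt (p.y n) (q.y n) t, C + D, fun n => ?_⟩, fun _ _ _ => rfl⟩
      have h2 := h (p.y n) (q.y n) (b n) t ht.1 ht.2
      have h3 : dist (pt (p.y n) (q.y n) t) (b n) ≤ dist (p.y n) (b n) + dist (q.y n) (b n) := by
        rw [dist_comm (b n), dist_comm (b n), dist_comm (b n)] at h2
        have a1 : 0 ≤ dist (p.y n) (b n) := dist_nonneg
        have a2 : 0 ≤ dist (q.y n) (b n) := dist_nonneg
        refine (abs_le_of_sq_le_sq' (h2.trans ?_) (by positivity)).2
        have a3 := mul_nonneg (mul_nonneg ht.1 (sub_nonneg.2 ht.2)) (sq_nonneg (dist (p.y n) (q.y n)))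
        have a4 := mul_nonneg ht.1 (sq_nonneg (dist (p.y n) (b n)))
        have a5 := mul_nonneg (sub_nonneg.2 ht.2) (sq_nonneg (dist (q.y n) (b n)))
        have a6 := mul_nonneg a1 a2
        nlinarith
      have := mul_le_mul_of_nonneg_left h3 (w n).2
      have h4 := hC n
      have h5 := hD n
      simp only [NNReal.val_eq_coe] at this
      linarith
    · exact ⟨p, fun h0 h1 => absurd ⟨h0, h1⟩ ht⟩
  choose pt' hpt using h1
  refine ⟨pt', fun p q z t h0 h1 => le_of_tendsto_of_tendsto' ((z.tend _).pow 2)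
    (((((z.tend p).pow 2).const_mul (1 - t)).add (((z.tend q).pow 2).const_mul t)).sub
      (((p.tend q).pow 2).const_mul (t * (1 - t)))) fun n => ?_⟩
  have := mul_le_mul_of_nonneg_left (h (p.y n) (q.y n) (z.y n) t h0 h1) (sq_nonneg (w n : ℝ))
  simp only [hpt p q t h0 h1, mul_pow]
  linarith

variable {G : Type*} [Group G] [MulAction G X] [IsIsometricSMul G X]

/-- The action on the ultralimit. -/
abbrev UL.act (h : ∀ g : G, ∃ C : ℝ, ∀ n, w n * dist (g • b n) (b n) ≤ C) : MulAction G (UL b w) where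
  smul g p := ⟨fun n => g • p.y n, by
    obtain ⟨C, hC⟩ := p.bd
    obtain ⟨D, hD⟩ := h g
    refine ⟨C + D, fun n => ?_⟩
    have := mul_le_mul_of_nonneg_left (dist_triangle (g • p.y n) (g • b n) (b n)) (w n).2
    have h1 := hC n
    have h2 := hD n
    simp only [NNReal.val_eq_coe, dist_smul] at this
    linarith⟩
  one_smul p := UL.ext (funext fun n => one_smul G _)
  mul_smul g g' p := UL.ext (funext fun n => mul_smul g g' _)

theorem fix_of_noAct {S G : Type} [Fintype S] [Group G] (a : S → G) (s0 : S) (h0 : a s0 = 1)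
    (hgen : Subgroup.closure (Set.range a) = ⊤)
    (H : ∀ (Y : Type u) [PseudoMetricSpace Y] [MulAction G Y] [IsIsometricSMul G Y]
      (x0 x1 : Y) (pt : Y → Y → ℝ → Y), ¬ Act a x0 x1 pt)
    (X : Type u) [MetricSpace X] [CompleteSpace X] [Nonempty X] [MulAction G X]
    [IsIsometricSMul G X] {pt : X → X → ℝ → X} (hpt : IsCNt pt) : ∃ x : X, ∀ g : G, g • x = x := by
  by_contra hfix
  have hE : ∀ p : X × X, 0 ≤ energy a p := fun p => sum_nonneg fun _ _ => sq_nonneg _
  have hpos : ∀ p : X × X, 0 < √(energy a p) := fun p => by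
    refine (Real.sqrt_nonneg _).lt_of_ne fun h => hfix ⟨p.2, fun g => ?_⟩
    have h1 : ∀ s, p.1 = a s • p.2 := fun s => dist_le_zero.1 (h ▸ dist_le_of_energy a p s)
    have h2 : Subgroup.closure (Set.range a) ≤ MulAction.stabilizer G p.2 :=
      (Subgroup.closure_le _).2 (by
        rintro _ ⟨s, rfl⟩
        exact (h1 s).symm.trans ((h1 s0).trans (by rw [h0, one_smul])))
    exact h2 (hgen ▸ Subgroup.mem_top g)
  choose p hp using fun n : ℕ => almost_min (fun p : X × X => √(energy a p))
    (continuous_energy a).sqrt hpos n (1 - 1 / ((n : ℝ) + 1)) n.cast_nonneg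
    (sub_nonneg.2 (div_le_one_of_le₀ (by linarith [n.cast_nonneg (α := ℝ)]) (by positivity)))
    (sub_lt_self _ (by positivity))
  let w : ℕ → NNReal := fun n => ⟨(√(energy a (p n)))⁻¹, by positivity⟩
  have hw : ∀ n, (w n : ℝ) * √(energy a (p n)) = 1 := fun n => inv_mul_cancel₀ (hpos _).ne'
  have hd : ∀ n s, w n * dist (p n).1 (a s • (p n).2) ≤ 1 := fun n s =>
    (mul_le_mul_of_nonneg_left (dist_le_of_energy a _ s) (w n).2).trans_eq (hw n)
  have hd0 : ∀ n, w n * dist (p n).1 (p n).2 ≤ 1 := fun n => by simpa [h0] using hd n s0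
  have hb : ∀ g : G, ∃ C : ℝ, ∀ n, w n * dist (g • (p n).2) (p n).2 ≤ C := fun g => by
    induction (hgen ▸ Subgroup.mem_top g : g ∈ Subgroup.closure (Set.range a))
      using Subgroup.closure_induction with
    | mem x hx =>
      obtain ⟨s, rfl⟩ := hx
      refine ⟨2, fun n => ?_⟩
      have := mul_le_mul_of_nonneg_left (dist_triangle_left (a s • (p n).2) (p n).2 (p n).1) (w n).2
      have h1 := hd n s
      have h2 := hd0 n
      simp only [NNReal.val_eq_coe] at this
      linarith
    | one => exact ⟨0, fun n => by simp⟩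
    | mul x y _ _ hx hy =>
      obtain ⟨C, hC⟩ := hx
      obtain ⟨D, hD⟩ := hy
      refine ⟨C + D, fun n => ?_⟩
      have := mul_le_mul_of_nonneg_left
        (dist_triangle (x • y • (p n).2) (x • (p n).2) (p n).2) (w n).2
      have h1 := hC n
      have h2 := hD n
      simp only [NNReal.val_eq_coe, dist_smul] at this
      rw [mul_smul]
      linarith
    | inv x _ hx =>
      obtain ⟨C, hC⟩ := hx
      exact ⟨C, fun n => by rw [← dist_smul x, smul_inv_smul, dist_comm]; exact hC n⟩
  letI := UL.act hb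
  haveI : IsIsometricSMul G (UL (fun n => (p n).2) w) := ⟨fun g => Isometry.of_dist_eq
    fun y z => tendsto_nhds_unique (UL.tend (g • y) (g • z)) (by
      have := UL.tend y z
      simp only [← dist_smul g (y.y _)] at this
      exact this)⟩
  obtain ⟨pt', hpt'⟩ := UL.cnt (b := fun n => (p n).2) (w := w) hpt
  have ht : ∀ y z : UL (fun n => (p n).2) w, Tendsto (fun n => w n * √(energy a (y.y n, z.y n)))
      (hyperfilter ℕ) (𝓝 √(∑ s, dist y (a s • z) ^ 2)) := fun y z => by
    refine ((tendsto_finsetSum univ fun s _ => (UL.tend y (a s • z)).pow 2).sqrt).congr fun n => ?_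
    simp only [mul_pow, ← mul_sum]
    rw [Real.sqrt_mul (sq_nonneg _), Real.sqrt_sq (w n).coe_nonneg]
    rfl
  let x0 : UL (fun n => (p n).2) w := ⟨fun n => (p n).1, 1, hd0⟩
  let x1 : UL (fun n => (p n).2) w := ⟨fun n => (p n).2, 0, fun n => by simp⟩
  have h1 : √(∑ s, dist x0 (a s • x1) ^ 2) = 1 :=
    tendsto_nhds_unique (ht x0 x1) (tendsto_const_nhds.congr fun n => (hw n).symm)
  have h2 : ∀ y z : UL (fun n => (p n).2) w,
      ∑ s, dist x0 (a s • x1) ^ 2 ≤ ∑ s, dist y (a s • z) ^ 2 := fun y z => by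
    refine (Real.sqrt_le_sqrt_iff (sum_nonneg fun _ _ => sq_nonneg _)).1 (h1 ▸ ?_)
    obtain ⟨C, hC⟩ := y.bd
    obtain ⟨D, hD⟩ := z.bd
    have h3 : Tendsto (fun n : ℕ => 1 - 1 / ((n : ℝ) + 1)) (hyperfilter ℕ) (𝓝 1) := by
      simpa using (tendsto_one_div_add_atTop_nhds_zero_nat.const_sub (1 : ℝ)).mono_left
        (Nat.hyperfilter_le_atTop)
    refine le_of_tendsto_of_tendsto h3 (ht y z) (Nat.hyperfilter_le_atTop ?_)
    filter_upwards [tendsto_natCast_atTop_atTop.eventually_ge_atTop (C + 1),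
      tendsto_natCast_atTop_atTop.eventually_ge_atTop D] with n n1 n2
    have h4 : ∀ x : ℝ, w n * x ≤ n → x ≤ n * √(energy a (p n)) := fun x hx => by
      have := mul_le_mul_of_nonneg_right hx (hpos (p n)).le
      rwa [mul_right_comm, hw, one_mul] at this
    have h5 := mul_le_mul_of_nonneg_left (hp n (y.y n, z.y n) (max_le (h4 _ ?_) (h4 _ ?_))) (w n).2
    · rwa [NNReal.val_eq_coe, mul_left_comm, hw, mul_one] at h5
    · have := mul_le_mul_of_nonneg_left (dist_triangle_right (p n).1 (y.y n) (p n).2) (w n).2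
      have h1 := hC n
      have h2 := hd0 n
      simp only [NNReal.val_eq_coe] at this
      linarith
    · rw [dist_comm]
      exact (hD n).trans n2
  exact H _ x0 x1 pt' ⟨hpt', fun z => h2 z x1, h2 x0, Real.sqrt_pos.1 (h1 ▸ one_pos)⟩

end Vale.Agent.N172
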